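import Mathlib

/-! Elementary inequalities used by the certificate. -/

namespace Vale.Agent.P252F

theorem cross_lower (T a b c z p q r : ℝ) :
    -(1 / 16 * z ^ 2 + 4 * (p ^ 2 + q ^ 2 + r ^ 2) * ((a ^ 2 + b ^ 2 + c ^ 2) * T ^ 2))
      ≤ T * (z * (p * a + q * b + r * c)) := by
  have h1 := sq_nonneg (z + 8 * T * (p * a + q * b + r * c))
  have h2 := mul_nonneg (sq_nonneg T)
    (add_nonneg (add_nonneg (sq_nonneg (p * b - q * a)) (sq_nonneg (p * c - r * a)))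
      (sq_nonneg (q * c - r * b)))
  nlinarith

theorem cubes_lower (a b c : ℝ) :
    (a ^ 2 + b ^ 2 + c ^ 2) ^ 3 ≤ 6 * ((a ^ 3) ^ 2 + (a ^ 2 * b) ^ 2 + (a ^ 2 * c) ^ 2
      + (a * b ^ 2) ^ 2 + (a * b * c) ^ 2 + (a * c ^ 2) ^ 2 + (b ^ 3) ^ 2 + (b ^ 2 * c) ^ 2
      + (b * c ^ 2) ^ 2 + (c ^ 3) ^ 2) := by
  nlinarith [sq_nonneg (a ^ 3), sq_nonneg (a ^ 2 * b), sq_nonneg (a ^ 2 * c),
    sq_nonneg (a * b ^ 2), sq_nonneg (a * c ^ 2), sq_nonneg (b ^ 3), sq_nonneg (b ^ 2 * c),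
    sq_nonneg (b * c ^ 2), sq_nonneg (c ^ 3), sq_nonneg (a * b * c)]

theorem absorb {C s R T : ℝ} (hC : 0 ≤ C) (hs : 0 ≤ s) (hCs : C ≤ 1 / 192 * s ^ 2) (hR : 0 ≤ R)
    (hT : 0 ≤ T) : C * (R * T ^ 2) ≤ 1 / 192 * R ^ 3 + C * s * T ^ 3 := by
  rcases le_total R (s * T) with h | h
  · have h1 := mul_le_mul_of_nonneg_left h (mul_nonneg hC (sq_nonneg T))
    nlinarith [pow_nonneg hR 3]
  · have h1 : (s * T) ^ 2 ≤ R ^ 2 := pow_le_pow_left₀ (mul_nonneg hs hT) h 2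
    have h2 := mul_le_mul_of_nonneg_right hCs (mul_nonneg hR (sq_nonneg T))
    have h3 := mul_le_mul_of_nonneg_left h1 hR
    nlinarith [mul_nonneg (mul_nonneg hC hs) (pow_nonneg hT 3)]

theorem top_lower (a b c : ℝ) : (a ^ 2) ^ 3 ≤ (a ^ 2 + b ^ 2 + c ^ 2) ^ 3 :=
  pow_le_pow_left₀ (sq_nonneg a) (by nlinarith [sq_nonneg b, sq_nonneg c]) 3

end Vale.Agent.P252F
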