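import Vale.Agent.P252F.Groups
import Vale.Agent.P252F.Blocks
import Vale.Agent.P252F.Ineq

/-! The pointwise certificate in the frame (generated). -/

set_option linter.style.longLine false

noncomputable section

namespace Vale.Agent.P252F

theorem identity (a b c T m0 m1 m2 a0 a1 a2 b0 b1 b2 m3 m4 a3 a4 b3 b4 : ℝ)
    (h0 : a0 * b + a1 * c - b0 * a = 0) (h1 : a1 * b + a2 * c - b1 * a = 0) (h2 : a3 * b + a4 * c - b3 * a = 0) :
    p_l a b c T m0 m1 m2 a0 a1 a2 b0 b1 b2 m3 m4 a3 a4 b3 b4 + p_u a b c T m0 m1 m2 a0 a1 a2 b0 b1 b2 m3 m4 a3 a4 b3 b4 + p_ml a b c T m0 m1 m2 a0 a1 a2 b0 b1 b2 m3 m4 a3 a4 b3 b4 + p_mu a b c T m0 m1 m2 a0 a1 a2 b0 b1 b2 m3 m4 a3 a4 b3 b4 + p_al a b c T m0 m1 m2 a0 a1 a2 b0 b1 b2 m3 m4 a3 a4 b3 b4 + p_au a b c T m0 m1 m2 a0 a1 a2 b0 b1 b2 m3 m4 a3 a4 b3 b4 + p_bu a b c T m0 m1 m2 a0 a1 a2 b0 b1 b2 m3 m4 a3 a4 b3 b4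
    = q0 (a * m3) (b * m3) (c * m4) (a * a3) (b * a3) (c * a4) (a * b3) (b * b3) (c * b4)
      + q1 (c * m0) (a * m1) (b * m1) (c * m2) (c * a0) (a * a1) (b * a1) (c * a2) (c * b0) (a * b1) (b * b1) (c * b2) (a ^ 2 * c) (a * b * c) (b ^ 2 * c) (c ^ 3)
      + q2 (a * m0) (b * m0) (c * m1) (a * m2) (b * m2) (a * a0) (b * a0) (c * a1) (a * a2) (b * a2) (a * b0) (b * b0) (c * b1) (a * b2) (b * b2) (a ^ 3) (a ^ 2 * b) (a * b ^ 2) (a * c ^ 2) (b ^ 3) (b * c ^ 2)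
      + q3 (c * m3) (a * m4) (b * m4) (c * a3) (a * a4) (b * a4) (c * b3) (a * b4) (b * b4)
      + T * ((a ^ 3) * ((-61) * a + (-1101) * b + 0 * c)
        + (a ^ 2 * b) * (0 * a + (-(18987 / 5)) * b + 0 * c)
        + (a ^ 2 * c) * (0 * a + 0 * b + (-(100703 / 25)) * c)
        + (a * b ^ 2) * (0 * a + (-(648426 / 125)) * b + 0 * c)
        + (a * b * c) * (0 * a + 0 * b + (-(648426 / 125)) * c)
        + (b ^ 3) * (0 * a + (-(1609349 / 625)) * b + 0 * c)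
        + (b ^ 2 * c) * (0 * a + 0 * b + (-(3218698 / 625)) * c)
        + (c ^ 3) * (0 * a + 0 * b + (-(1609349 / 625)) * c)
        + (a * m0) * ((-180) * a + (5256 / 5) * b + 0 * c)
        + (a * m1) * (0 * a + 0 * b + (5256 / 5) * c)
        + (b * m0) * (0 * a + (5356 / 25) * b + 0 * c)
        + (b * m1) * (0 * a + 0 * b + (10712 / 25) * c)
        + (c * m2) * (0 * a + 0 * b + (5356 / 25) * c)
        + (a * a0) * (103 * a + (-533) * b + 0 * c)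
        + (a * a1) * (0 * a + 0 * b + (-533) * c)
        + (b * a0) * (0 * a + (-(17312 / 25)) * b + 0 * c)
        + (b * a1) * (0 * a + 0 * b + (-(34624 / 25)) * c)
        + (c * a2) * (0 * a + 0 * b + (-(17312 / 25)) * c)
        + (a * b0) * (0 * a + (4511 / 25) * b + 0 * c)
        + (a * b1) * (0 * a + 0 * b + (4511 / 25) * c)
        + (b * b0) * (0 * a + (-(57938 / 125)) * b + 0 * c)
        + (b * b1) * (0 * a + 0 * b + (-(115876 / 125)) * c)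
        + (c * b2) * (0 * a + 0 * b + (-(57938 / 125)) * c)) := by
  simp only [p_l, p_u, p_ml, p_mu, p_al, p_au, p_bu, q0, q1, q2, q3]
  linear_combination (norm := skip) -(lam0 a b c T m0 m1 m2 a0 a1 a2 b0 b1 b2 m3 m4 a3 a4 b3 b4) * h0 - lam1 a b c T m0 m1 m2 a0 a1 a2 b0 b1 b2 m3 m4 a3 a4 b3 b4 * h1 - lam2 a b c T m0 m1 m2 a0 a1 a2 b0 b1 b2 m3 m4 a3 a4 b3 b4 * h2
  simp only [lam0, lam1, lam2]
  ring

theorem frame_cert (a b c T m0 m1 m2 a0 a1 a2 b0 b1 b2 m3 m4 a3 a4 b3 b4 : ℝ) (hT : 0 ≤ T)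
    (h0 : a0 * b + a1 * c - b0 * a = 0) (h1 : a1 * b + a2 * c - b1 * a = 0) (h2 : a3 * b + a4 * c - b3 * a = 0) :
    1 / 192 * (a ^ 2) ^ 3 - (108782153207814029312 / 390625) * T ^ 3 ≤
      p_l a b c T m0 m1 m2 a0 a1 a2 b0 b1 b2 m3 m4 a3 a4 b3 b4 + p_u a b c T m0 m1 m2 a0 a1 a2 b0 b1 b2 m3 m4 a3 a4 b3 b4 + p_ml a b c T m0 m1 m2 a0 a1 a2 b0 b1 b2 m3 m4 a3 a4 b3 b4 + p_mu a b c T m0 m1 m2 a0 a1 a2 b0 b1 b2 m3 m4 a3 a4 b3 b4 + p_al a b c T m0 m1 m2 a0 a1 a2 b0 b1 b2 m3 m4 a3 a4 b3 b4 + p_au a b c T m0 m1 m2 a0 a1 a2 b0 b1 b2 m3 m4 a3 a4 b3 b4 + p_bu a b c T m0 m1 m2 a0 a1 a2 b0 b1 b2 m3 m4 a3 a4 b3 b4 := by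
  rw [identity a b c T m0 m1 m2 a0 a1 a2 b0 b1 b2 m3 m4 a3 a4 b3 b4 h0 h1 h2]
  have g0 := q0_lower (a * m3) (b * m3) (c * m4) (a * a3) (b * a3) (c * a4) (a * b3) (b * b3) (c * b4)
  have g1 := q1_lower (c * m0) (a * m1) (b * m1) (c * m2) (c * a0) (a * a1) (b * a1) (c * a2) (c * b0) (a * b1) (b * b1) (c * b2) (a ^ 2 * c) (a * b * c) (b ^ 2 * c) (c ^ 3)
  have g2 := q2_lower (a * m0) (b * m0) (c * m1) (a * m2) (b * m2) (a * a0) (b * a0) (c * a1) (a * a2) (b * a2) (a * b0) (b * b0) (c * b1) (a * b2) (b * b2) (a ^ 3) (a ^ 2 * b) (a * b ^ 2) (a * c ^ 2) (b ^ 3) (b * c ^ 2)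
  have g3 := q3_lower (c * m3) (a * m4) (b * m4) (c * a3) (a * a4) (b * a4) (c * b3) (a * b4) (b * b4)
  have t0 := cross_lower T a b c (a ^ 3) (-61) (-1101) 0
  have t1 := cross_lower T a b c (a ^ 2 * b) 0 (-(18987 / 5)) 0
  have t2 := cross_lower T a b c (a ^ 2 * c) 0 0 (-(100703 / 25))
  have t3 := cross_lower T a b c (a * b ^ 2) 0 (-(648426 / 125)) 0
  have t4 := cross_lower T a b c (a * b * c) 0 0 (-(648426 / 125))
  have t5 := cross_lower T a b c (b ^ 3) 0 (-(1609349 / 625)) 0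
  have t6 := cross_lower T a b c (b ^ 2 * c) 0 0 (-(3218698 / 625))
  have t7 := cross_lower T a b c (c ^ 3) 0 0 (-(1609349 / 625))
  have t8 := cross_lower T a b c (a * m0) (-180) (5256 / 5) 0
  have t9 := cross_lower T a b c (a * m1) 0 0 (5256 / 5)
  have t10 := cross_lower T a b c (b * m0) 0 (5356 / 25) 0
  have t11 := cross_lower T a b c (b * m1) 0 0 (10712 / 25)
  have t12 := cross_lower T a b c (c * m2) 0 0 (5356 / 25)
  have t13 := cross_lower T a b c (a * a0) 103 (-533) 0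
  have t14 := cross_lower T a b c (a * a1) 0 0 (-533)
  have t15 := cross_lower T a b c (b * a0) 0 (-(17312 / 25)) 0
  have t16 := cross_lower T a b c (b * a1) 0 0 (-(34624 / 25))
  have t17 := cross_lower T a b c (c * a2) 0 0 (-(17312 / 25))
  have t18 := cross_lower T a b c (a * b0) 0 (4511 / 25) 0
  have t19 := cross_lower T a b c (a * b1) 0 0 (4511 / 25)
  have t20 := cross_lower T a b c (b * b0) 0 (-(57938 / 125)) 0
  have t21 := cross_lower T a b c (b * b1) 0 0 (-(115876 / 125))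
  have t22 := cross_lower T a b c (c * b2) 0 0 (-(57938 / 125))
  have hc := cubes_lower a b c
  have hf := absorb (C := (207485491195324 / 390625)) (s := 524288) (R := a ^ 2 + b ^ 2 + c ^ 2) (T := T)
    (by norm_num) (by norm_num) (by norm_num) (by positivity) hT
  have ha := top_lower a b c
  have n0 := sq_nonneg (a * m3)
  have n1 := sq_nonneg (b * m3)
  have n2 := sq_nonneg (c * m4)
  have n3 := sq_nonneg (a * a3)
  have n4 := sq_nonneg (b * a3)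
  have n5 := sq_nonneg (c * a4)
  have n6 := sq_nonneg (a * b3)
  have n7 := sq_nonneg (b * b3)
  have n8 := sq_nonneg (c * b4)
  have n9 := sq_nonneg (c * m0)
  have n10 := sq_nonneg (a * m1)
  have n11 := sq_nonneg (b * m1)
  have n12 := sq_nonneg (c * m2)
  have n13 := sq_nonneg (c * a0)
  have n14 := sq_nonneg (a * a1)
  have n15 := sq_nonneg (b * a1)
  have n16 := sq_nonneg (c * a2)
  have n17 := sq_nonneg (c * b0)
  have n18 := sq_nonneg (a * b1)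
  have n19 := sq_nonneg (b * b1)
  have n20 := sq_nonneg (c * b2)
  have n21 := sq_nonneg (a * m0)
  have n22 := sq_nonneg (b * m0)
  have n23 := sq_nonneg (c * m1)
  have n24 := sq_nonneg (a * m2)
  have n25 := sq_nonneg (b * m2)
  have n26 := sq_nonneg (a * a0)
  have n27 := sq_nonneg (b * a0)
  have n28 := sq_nonneg (c * a1)
  have n29 := sq_nonneg (a * a2)
  have n30 := sq_nonneg (b * a2)
  have n31 := sq_nonneg (a * b0)
  have n32 := sq_nonneg (b * b0)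
  have n33 := sq_nonneg (c * b1)
  have n34 := sq_nonneg (a * b2)
  have n35 := sq_nonneg (b * b2)
  have n36 := sq_nonneg (c * m3)
  have n37 := sq_nonneg (a * m4)
  have n38 := sq_nonneg (b * m4)
  have n39 := sq_nonneg (c * a3)
  have n40 := sq_nonneg (a * a4)
  have n41 := sq_nonneg (b * a4)
  have n42 := sq_nonneg (c * b3)
  have n43 := sq_nonneg (a * b4)
  have n44 := sq_nonneg (b * b4)
  have k0 := sq_nonneg (a ^ 3)
  have k1 := sq_nonneg (a ^ 2 * b)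
  have k2 := sq_nonneg (a ^ 2 * c)
  have k3 := sq_nonneg (a * b ^ 2)
  have k4 := sq_nonneg (a * b * c)
  have k5 := sq_nonneg (a * c ^ 2)
  have k6 := sq_nonneg (b ^ 3)
  have k7 := sq_nonneg (b ^ 2 * c)
  have k8 := sq_nonneg (b * c ^ 2)
  have k9 := sq_nonneg (c ^ 3)
  linarith

end Vale.Agent.P252F
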