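import Mathlib

/-! Expanded forms of the certificate in the frame (generated by notes/helper6/P252/n3/sos). -/

set_option linter.style.longLine false
set_option linter.unusedVariables false

noncomputable section

namespace Vale.Agent.P252F

/-- expanded field group -/
def p_l (a b c T m0 m1 m2 a0 a1 a2 b0 b1 b2 m3 m4 a3 a4 b3 b4 : ℝ) : ℝ :=
    (-(48136 / 125)) * a * c ^ 3 * m1 + (48136 / 125) * a * c ^ 3 * a1
      + (213398 / 625) * a * c ^ 3 * b1 + (-(48136 / 125)) * a * b * c ^ 2 * m0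
      + (48136 / 125) * a * b * c ^ 2 * a0 + (213398 / 625) * a * b * c ^ 2 * b0
      + (-(426796 / 125)) * a * b * c ^ 2 * T + (426796 / 625) * a * b * c ^ 4
      + (-(48136 / 125)) * a * b ^ 2 * c * m1 + (48136 / 125) * a * b ^ 2 * c * a1
      + (213398 / 625) * a * b ^ 2 * c * b1 + (-(48136 / 125)) * a * b ^ 3 * m0
      + (48136 / 125) * a * b ^ 3 * a0 + (213398 / 625) * a * b ^ 3 * b0
      + (-(426796 / 125)) * a * b ^ 3 * T + (853592 / 625) * a * b ^ 3 * c ^ 2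
      + (426796 / 625) * a * b ^ 5 + (-(7782 / 25)) * a ^ 2 * c ^ 2 * m0
      + (3891 / 25) * a ^ 2 * c ^ 2 * a0 + (-(48136 / 25)) * a ^ 2 * c ^ 2 * T
      + (320097 / 500) * a ^ 2 * c ^ 4 + (-(1052 / 25)) * a ^ 2 * b * c * m1
      + (1052 / 25) * a ^ 2 * b * c * a1 + (48136 / 125) * a ^ 2 * b * c * b1
      + (-(8834 / 25)) * a ^ 2 * b ^ 2 * m0 + (4943 / 25) * a ^ 2 * b ^ 2 * a0
      + (48136 / 125) * a ^ 2 * b ^ 2 * b0 + (-(144408 / 25)) * a ^ 2 * b ^ 2 * T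
      + (3622197 / 1250) * a ^ 2 * b ^ 2 * c ^ 2 + (5643909 / 2500) * a ^ 2 * b ^ 4
      + (-47) * a ^ 3 * c * m1 + 47 * a ^ 3 * c * a1 + (3891 / 25) * a ^ 3 * c * b1
      + (-141) * a ^ 3 * b * m0 + 94 * a ^ 3 * b * a0 + (3891 / 25) * a ^ 3 * b * b0
      + (-(8834 / 5)) * a ^ 3 * b * T + (266112 / 125) * a ^ 3 * b * c ^ 2
      + (277684 / 125) * a ^ 3 * b ^ 3 + (-144) * a ^ 4 * m0 + 72 * a ^ 4 * a0
      + (-235) * a ^ 4 * T + (11673 / 20) * a ^ 4 * c ^ 2 + (3515 / 4) * a ^ 4 * b ^ 2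
      + (6981 / 20) * a ^ 5 * b + 135 * a ^ 6

/-- expanded field group -/
def p_u (a b c T m0 m1 m2 a0 a1 a2 b0 b1 b2 m3 m4 a3 a4 b3 b4 : ℝ) : ℝ :=
    (-(17044 / 125)) * c ^ 4 * m2 + (17044 / 125) * c ^ 4 * a2 + (459814 / 3125) * c ^ 4 * b2
      + (-(1609349 / 625)) * c ^ 4 * T + (4368233 / 15625) * c ^ 6
      + (-(34088 / 125)) * b * c ^ 3 * m1 + (34088 / 125) * b * c ^ 3 * a1
      + (919628 / 3125) * b * c ^ 3 * b1 + (-(17044 / 125)) * b ^ 2 * c ^ 2 * m0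
      + (-(17044 / 125)) * b ^ 2 * c ^ 2 * m2 + (17044 / 125) * b ^ 2 * c ^ 2 * a0
      + (17044 / 125) * b ^ 2 * c ^ 2 * a2 + (459814 / 3125) * b ^ 2 * c ^ 2 * b0
      + (459814 / 3125) * b ^ 2 * c ^ 2 * b2 + (-(3218698 / 625)) * b ^ 2 * c ^ 2 * T
      + (13104699 / 15625) * b ^ 2 * c ^ 4 + (-(34088 / 125)) * b ^ 3 * c * m1
      + (34088 / 125) * b ^ 3 * c * a1 + (919628 / 3125) * b ^ 3 * c * b1
      + (-(17044 / 125)) * b ^ 4 * m0 + (17044 / 125) * b ^ 4 * a0 + (459814 / 3125) * b ^ 4 * b0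
      + (-(1609349 / 625)) * b ^ 4 * T + (13104699 / 15625) * b ^ 4 * c ^ 2
      + (4368233 / 15625) * b ^ 6 + (-(34054 / 125)) * a * c ^ 3 * m1
      + (17027 / 125) * a * c ^ 3 * a1 + (-(34054 / 125)) * a * b * c ^ 2 * m0
      + (11772 / 25) * a * b * c ^ 2 * m2 + (17027 / 125) * a * b * c ^ 2 * a0
      + (-(11772 / 25)) * a * b * c ^ 2 * a2 + (17044 / 125) * a * b * c ^ 2 * b2
      + (-(102264 / 25)) * a * b * c ^ 2 * T + (6587693 / 12500) * a * b * c ^ 4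
      + (83666 / 125) * a * b ^ 2 * c * m1 + (-(100693 / 125)) * a * b ^ 2 * c * a1
      + (34088 / 125) * a * b ^ 2 * c * b1 + (24806 / 125) * a * b ^ 3 * m0
      + (-(41833 / 125)) * a * b ^ 3 * a0 + (17044 / 125) * a * b ^ 3 * b0
      + (-(102264 / 25)) * a * b ^ 3 * T + (6587693 / 6250) * a * b ^ 3 * c ^ 2
      + (6587693 / 12500) * a * b ^ 5 + (38 / 25) * a ^ 2 * c ^ 2 * m2
      + (-(38 / 25)) * a ^ 2 * c ^ 2 * a2 + (17027 / 125) * a ^ 2 * c ^ 2 * b2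
      + (-(17027 / 5)) * a ^ 2 * c ^ 2 * T + (357567 / 625) * a ^ 2 * c ^ 4
      + (152 / 25) * a ^ 2 * b * c * m1 + (-(114 / 25)) * a ^ 2 * b * c * a1
      + (34054 / 125) * a ^ 2 * b * c * b1 + (114 / 25) * a ^ 2 * b ^ 2 * m0
      + (-(76 / 25)) * a ^ 2 * b ^ 2 * a0 + (17027 / 125) * a ^ 2 * b ^ 2 * b0
      + (12403 / 5) * a ^ 2 * b ^ 2 * T + (75799 / 625) * a ^ 2 * b ^ 2 * c ^ 2
      + (-(281768 / 625)) * a ^ 2 * b ^ 4 + (-116) * a ^ 3 * c * m1 + 58 * a ^ 3 * c * a1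
      + (-116) * a ^ 3 * b * m0 + 58 * a ^ 3 * b * a0 + (152 / 5) * a ^ 3 * b * T
      + (-(20371 / 500)) * a ^ 3 * b * c ^ 2 + (9059 / 500) * a ^ 3 * b ^ 3 + (-435) * a ^ 4 * T
      + (667 / 5) * a ^ 4 * c ^ 2 + (6689 / 50) * a ^ 4 * b ^ 2 + (-(29 / 4)) * a ^ 5 * b

/-- expanded field group -/
def p_ml (a b c T m0 m1 m2 a0 a1 a2 b0 b1 b2 m3 m4 a3 a4 b3 b4 : ℝ) : ℝ :=
    (2984 / 25) * c ^ 2 * m0 ^ 2 + (2984 / 25) * c ^ 2 * m0 * m2 + (2984 / 25) * c ^ 2 * m1 ^ 2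
      + (2984 / 25) * c ^ 2 * m2 ^ 2 + (2984 / 25) * c ^ 2 * m3 ^ 2 + (2984 / 25) * c ^ 2 * m4 ^ 2
      + (2984 / 25) * b ^ 2 * m0 ^ 2 + (2984 / 25) * b ^ 2 * m0 * m2
      + (2984 / 25) * b ^ 2 * m1 ^ 2 + (2984 / 25) * b ^ 2 * m2 ^ 2 + (2984 / 25) * b ^ 2 * m3 ^ 2
      + (2984 / 25) * b ^ 2 * m4 ^ 2 + (-36) * a * c * m0 * m1 + 36 * a * c * m0 * a1
      + (-(1492 / 25)) * a * c * m0 * b1 + (-36) * a * c * m1 * m2 + 36 * a * c * m1 * a2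
      + (-(1492 / 25)) * a * c * m1 * b2 + (-36) * a * c * m3 * m4 + 36 * a * c * m3 * a4
      + (-(1492 / 25)) * a * c * m3 * b4 + (2984 / 5) * a * c * T * m1
      + (-(32824 / 125)) * a * c ^ 3 * m1 + (-108) * a * b * m0 ^ 2 + (-72) * a * b * m0 * m2
      + 36 * a * b * m0 * a0 + (-(1492 / 25)) * a * b * m0 * b0 + (-108) * a * b * m1 ^ 2
      + 36 * a * b * m1 * a1 + (-(1492 / 25)) * a * b * m1 * b1 + (-72) * a * b * m2 ^ 2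
      + (-108) * a * b * m3 ^ 2 + 36 * a * b * m3 * a3 + (-(1492 / 25)) * a * b * m3 * b3
      + (-72) * a * b * m4 ^ 2 + (2984 / 5) * a * b * T * m0
      + (-(32824 / 125)) * a * b * c ^ 2 * m0 + (-(32824 / 125)) * a * b ^ 2 * c * m1
      + (-(32824 / 125)) * a * b ^ 3 * m0 + 136 * a ^ 2 * m0 ^ 2 + 68 * a ^ 2 * m0 * m2
      + (-34) * a ^ 2 * m0 * a0 + 136 * a ^ 2 * m1 ^ 2 + (-34) * a ^ 2 * m1 * a1
      + 68 * a ^ 2 * m2 ^ 2 + 136 * a ^ 2 * m3 ^ 2 + (-34) * a ^ 2 * m3 * a3 + 68 * a ^ 2 * m4 ^ 2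
      + (-180) * a ^ 2 * T * m0 + (373 / 25) * a ^ 2 * c ^ 2 * m0
      + (11936 / 25) * a ^ 2 * c ^ 2 * m2 + (5968 / 25) * a ^ 2 * c ^ 2 * a0
      + (828 / 5) * a ^ 2 * b * c * m1 + (4513 / 25) * a ^ 2 * b ^ 2 * m0
      + (11936 / 25) * a ^ 2 * b ^ 2 * m2 + (5968 / 25) * a ^ 2 * b ^ 2 * a0
      + (-(816 / 5)) * a ^ 3 * c * m1 + (-(861 / 5)) * a ^ 3 * b * m0 + (-288) * a ^ 3 * b * m2
      + (-144) * a ^ 3 * b * a0 + (17 / 2) * a ^ 4 * m0 + 272 * a ^ 4 * m2 + 136 * a ^ 4 * a0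
      + (23872 / 25) * a ^ 4 * c ^ 2 + (23872 / 25) * a ^ 4 * b ^ 2 + (-576) * a ^ 5 * b
      + 544 * a ^ 6

/-- expanded field group -/
def p_mu (a b c T m0 m1 m2 a0 a1 a2 b0 b1 b2 m3 m4 a3 a4 b3 b4 : ℝ) : ℝ :=
    (2272 / 25) * c ^ 2 * m1 ^ 2 + (-(2272 / 25)) * c ^ 2 * m1 * a1
      + (-(2678 / 125)) * c ^ 2 * m1 * b1 + (2272 / 25) * c ^ 2 * m2 ^ 2
      + (-(2272 / 25)) * c ^ 2 * m2 * a2 + (-(2678 / 125)) * c ^ 2 * m2 * b2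
      + (2272 / 25) * c ^ 2 * m4 ^ 2 + (-(2272 / 25)) * c ^ 2 * m4 * a4
      + (-(2678 / 125)) * c ^ 2 * m4 * b4 + (5356 / 25) * c ^ 2 * T * m2
      + (-(56238 / 625)) * c ^ 4 * m2 + (4544 / 25) * b * c * m0 * m1
      + (-(2272 / 25)) * b * c * m0 * a1 + (-(2678 / 125)) * b * c * m0 * b1
      + (4544 / 25) * b * c * m1 * m2 + (-(2272 / 25)) * b * c * m1 * a0
      + (-(2272 / 25)) * b * c * m1 * a2 + (-(2678 / 125)) * b * c * m1 * b0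
      + (-(2678 / 125)) * b * c * m1 * b2 + (-(2272 / 25)) * b * c * m2 * a1
      + (-(2678 / 125)) * b * c * m2 * b1 + (4544 / 25) * b * c * m3 * m4
      + (-(2272 / 25)) * b * c * m3 * a4 + (-(2678 / 125)) * b * c * m3 * b4
      + (-(2272 / 25)) * b * c * m4 * a3 + (-(2678 / 125)) * b * c * m4 * b3
      + (10712 / 25) * b * c * T * m1 + (-(112476 / 625)) * b * c ^ 3 * m1
      + (2272 / 25) * b ^ 2 * m0 ^ 2 + (-(2272 / 25)) * b ^ 2 * m0 * a0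
      + (-(2678 / 125)) * b ^ 2 * m0 * b0 + (2272 / 25) * b ^ 2 * m1 ^ 2
      + (-(2272 / 25)) * b ^ 2 * m1 * a1 + (-(2678 / 125)) * b ^ 2 * m1 * b1
      + (2272 / 25) * b ^ 2 * m3 ^ 2 + (-(2272 / 25)) * b ^ 2 * m3 * a3
      + (-(2678 / 125)) * b ^ 2 * m3 * b3 + (5356 / 25) * b ^ 2 * T * m0
      + (-(56238 / 625)) * b ^ 2 * c ^ 2 * m0 + (-(56238 / 625)) * b ^ 2 * c ^ 2 * m2
      + (-(112476 / 625)) * b ^ 3 * c * m1 + (-(56238 / 625)) * b ^ 4 * m0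
      + (78 / 5) * a * c * m0 * m1 + (78 / 5) * a * c * m1 * m2 + (-(39 / 5)) * a * c * m1 * a0
      + (-(39 / 5)) * a * c * m2 * a1 + (78 / 5) * a * c * m3 * m4 + (-(39 / 5)) * a * c * m4 * a3
      + (2272 / 5) * a * c * T * m1 + (-(41509 / 250)) * a * c ^ 3 * m1
      + (10712 / 125) * a * c ^ 3 * a1 + (78 / 5) * a * b * m0 ^ 2 + (-(39 / 5)) * a * b * m0 * a0
      + (78 / 5) * a * b * m1 ^ 2 + (-(39 / 5)) * a * b * m1 * a1 + (78 / 5) * a * b * m3 ^ 2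
      + (-(39 / 5)) * a * b * m3 * a3 + (2272 / 5) * a * b * T * m0
      + (-(41509 / 250)) * a * b * c ^ 2 * m0 + (-(49984 / 125)) * a * b * c ^ 2 * m2
      + (10712 / 125) * a * b * c ^ 2 * a0 + (-(48289 / 50)) * a * b ^ 2 * c * m1
      + (10712 / 125) * a * b ^ 2 * c * a1 + (-(141477 / 250)) * a * b ^ 3 * m0
      + (10712 / 125) * a * b ^ 3 * a0 + (-(897 / 25)) * a ^ 2 * c ^ 2 * m2
      + (-(10712 / 25)) * a ^ 2 * c ^ 2 * T + (-(19402 / 25)) * a ^ 2 * b * c * m1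
      + (9088 / 25) * a ^ 2 * b * c * a1 + (-(3701 / 5)) * a ^ 2 * b ^ 2 * m0
      + (9088 / 25) * a ^ 2 * b ^ 2 * a0 + (-(10712 / 25)) * a ^ 2 * b ^ 2 * T
      + (-(1209 / 20)) * a ^ 3 * c * m1 + (156 / 5) * a ^ 3 * c * a1
      + (-(1209 / 20)) * a ^ 3 * b * m0 + (156 / 5) * a ^ 3 * b * a0
      + (-(9088 / 5)) * a ^ 3 * b * T + (-156) * a ^ 4 * T

/-- expanded field group -/
def p_al (a b c T m0 m1 m2 a0 a1 a2 b0 b1 b2 m3 m4 a3 a4 b3 b4 : ℝ) : ℝ :=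
    (-(4976 / 25)) * c ^ 2 * m0 * a0 + (-(2488 / 25)) * c ^ 2 * m0 * a2
      + (-(4976 / 25)) * c ^ 2 * m1 * a1 + (-(2488 / 25)) * c ^ 2 * m2 * a0
      + (-(4976 / 25)) * c ^ 2 * m2 * a2 + (2488 / 25) * c ^ 2 * a0 ^ 2
      + (2488 / 25) * c ^ 2 * a0 * a2 + (2488 / 25) * c ^ 2 * a1 ^ 2
      + (2488 / 25) * c ^ 2 * a2 ^ 2 + (-(4976 / 25)) * c ^ 2 * m3 * a3
      + (-(4976 / 25)) * c ^ 2 * m4 * a4 + (2488 / 25) * c ^ 2 * a3 ^ 2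
      + (2488 / 25) * c ^ 2 * a4 ^ 2 + (-(4976 / 25)) * b ^ 2 * m0 * a0
      + (-(2488 / 25)) * b ^ 2 * m0 * a2 + (-(4976 / 25)) * b ^ 2 * m1 * a1
      + (-(2488 / 25)) * b ^ 2 * m2 * a0 + (-(4976 / 25)) * b ^ 2 * m2 * a2
      + (2488 / 25) * b ^ 2 * a0 ^ 2 + (2488 / 25) * b ^ 2 * a0 * a2
      + (2488 / 25) * b ^ 2 * a1 ^ 2 + (2488 / 25) * b ^ 2 * a2 ^ 2
      + (-(4976 / 25)) * b ^ 2 * m3 * a3 + (-(4976 / 25)) * b ^ 2 * m4 * a4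
      + (2488 / 25) * b ^ 2 * a3 ^ 2 + (2488 / 25) * b ^ 2 * a4 ^ 2 + (103 / 5) * a * c * m1 * a0
      + (103 / 5) * a * c * m2 * a1 + (-(103 / 5)) * a * c * a0 * a1
      + (1244 / 25) * a * c * a0 * b1 + (-(103 / 5)) * a * c * a1 * a2
      + (1244 / 25) * a * c * a1 * b2 + (103 / 5) * a * c * m4 * a3
      + (-(103 / 5)) * a * c * a3 * a4 + (1244 / 25) * a * c * a3 * b4
      + (-(2488 / 5)) * a * c * T * a1 + (27368 / 125) * a * c ^ 3 * a1 + 103 * a * b * m0 * a0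
      + (206 / 5) * a * b * m0 * a2 + 103 * a * b * m1 * a1 + (206 / 5) * a * b * m2 * a0
      + (412 / 5) * a * b * m2 * a2 + (-(309 / 5)) * a * b * a0 ^ 2
      + (-(206 / 5)) * a * b * a0 * a2 + (1244 / 25) * a * b * a0 * b0
      + (-(309 / 5)) * a * b * a1 ^ 2 + (1244 / 25) * a * b * a1 * b1
      + (-(206 / 5)) * a * b * a2 ^ 2 + 103 * a * b * m3 * a3 + (412 / 5) * a * b * m4 * a4
      + (-(309 / 5)) * a * b * a3 ^ 2 + (1244 / 25) * a * b * a3 * b3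
      + (-(206 / 5)) * a * b * a4 ^ 2 + (-(2488 / 5)) * a * b * T * a0
      + (27368 / 125) * a * b * c ^ 2 * a0 + (27368 / 125) * a * b ^ 2 * c * a1
      + (27368 / 125) * a * b ^ 3 * a0 + (-150) * a ^ 2 * m0 * a0 + (-50) * a ^ 2 * m0 * a2
      + (-150) * a ^ 2 * m1 * a1 + (-50) * a ^ 2 * m2 * a0 + (-100) * a ^ 2 * m2 * a2
      + 75 * a ^ 2 * a0 ^ 2 + 50 * a ^ 2 * a0 * a2 + 75 * a ^ 2 * a1 ^ 2 + 50 * a ^ 2 * a2 ^ 2
      + (-150) * a ^ 2 * m3 * a3 + (-100) * a ^ 2 * m4 * a4 + 75 * a ^ 2 * a3 ^ 2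
      + 50 * a ^ 2 * a4 ^ 2 + 103 * a ^ 2 * T * a0 + (-(1244 / 5)) * a ^ 2 * c ^ 2 * m0
      + (-(2488 / 5)) * a ^ 2 * c ^ 2 * m2 + (2177 / 25) * a ^ 2 * c ^ 2 * a0
      + (2488 / 25) * a ^ 2 * c ^ 2 * a2 + (-(2369 / 25)) * a ^ 2 * b * c * a1
      + (-(1244 / 5)) * a ^ 2 * b ^ 2 * m0 + (-(2488 / 5)) * a ^ 2 * b ^ 2 * m2
      + (-(192 / 25)) * a ^ 2 * b ^ 2 * a0 + (2488 / 25) * a ^ 2 * b ^ 2 * a2
      + 120 * a ^ 3 * c * a1 + 103 * a ^ 3 * b * m0 + 206 * a ^ 3 * b * m2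
      + (1679 / 20) * a ^ 3 * b * a0 + (-(206 / 5)) * a ^ 3 * b * a2 + (-125) * a ^ 4 * m0
      + (-250) * a ^ 4 * m2 + (175 / 4) * a ^ 4 * a0 + 50 * a ^ 4 * a2
      + (-(3732 / 5)) * a ^ 4 * c ^ 2 + (-(3732 / 5)) * a ^ 4 * b ^ 2 + 309 * a ^ 5 * b
      + (-375) * a ^ 6

/-- expanded field group -/
def p_au (a b c T m0 m1 m2 a0 a1 a2 b0 b1 b2 m3 m4 a3 a4 b3 b4 : ℝ) : ℝ :=
    (-(17312 / 125)) * c ^ 2 * m0 * b0 + (-(8656 / 125)) * c ^ 2 * m0 * b2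
      + (-(177 / 25)) * c ^ 2 * m1 * a1 + (-(17312 / 125)) * c ^ 2 * m1 * b1
      + (-(177 / 25)) * c ^ 2 * m2 * a2 + (-(8656 / 125)) * c ^ 2 * m2 * b0
      + (-(17312 / 125)) * c ^ 2 * m2 * b2 + (17312 / 125) * c ^ 2 * a0 * b0
      + (8656 / 125) * c ^ 2 * a0 * b2 + (177 / 25) * c ^ 2 * a1 ^ 2
      + (25968 / 125) * c ^ 2 * a1 * b1 + (177 / 25) * c ^ 2 * a2 ^ 2
      + (8656 / 125) * c ^ 2 * a2 * b0 + (25968 / 125) * c ^ 2 * a2 * b2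
      + (-(17312 / 125)) * c ^ 2 * m3 * b3 + (-(177 / 25)) * c ^ 2 * m4 * a4
      + (-(17312 / 125)) * c ^ 2 * m4 * b4 + (17312 / 125) * c ^ 2 * a3 * b3
      + (177 / 25) * c ^ 2 * a4 ^ 2 + (25968 / 125) * c ^ 2 * a4 * b4
      + (-(17312 / 25)) * c ^ 2 * T * a2 + (181776 / 625) * c ^ 4 * a2
      + (-(177 / 25)) * b * c * m0 * a1 + (-(177 / 25)) * b * c * m1 * a0
      + (-(177 / 25)) * b * c * m1 * a2 + (-(177 / 25)) * b * c * m2 * a1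
      + (354 / 25) * b * c * a0 * a1 + (8656 / 125) * b * c * a0 * b1
      + (354 / 25) * b * c * a1 * a2 + (8656 / 125) * b * c * a1 * b0
      + (8656 / 125) * b * c * a1 * b2 + (8656 / 125) * b * c * a2 * b1
      + (-(177 / 25)) * b * c * m3 * a4 + (-(177 / 25)) * b * c * m4 * a3
      + (354 / 25) * b * c * a3 * a4 + (8656 / 125) * b * c * a3 * b4
      + (8656 / 125) * b * c * a4 * b3 + (-(34624 / 25)) * b * c * T * a1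
      + (363552 / 625) * b * c ^ 3 * a1 + (-(177 / 25)) * b ^ 2 * m0 * a0
      + (-(17312 / 125)) * b ^ 2 * m0 * b0 + (-(8656 / 125)) * b ^ 2 * m0 * b2
      + (-(177 / 25)) * b ^ 2 * m1 * a1 + (-(17312 / 125)) * b ^ 2 * m1 * b1
      + (-(8656 / 125)) * b ^ 2 * m2 * b0 + (-(17312 / 125)) * b ^ 2 * m2 * b2
      + (177 / 25) * b ^ 2 * a0 ^ 2 + (25968 / 125) * b ^ 2 * a0 * b0
      + (8656 / 125) * b ^ 2 * a0 * b2 + (177 / 25) * b ^ 2 * a1 ^ 2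
      + (25968 / 125) * b ^ 2 * a1 * b1 + (8656 / 125) * b ^ 2 * a2 * b0
      + (17312 / 125) * b ^ 2 * a2 * b2 + (-(177 / 25)) * b ^ 2 * m3 * a3
      + (-(17312 / 125)) * b ^ 2 * m3 * b3 + (-(17312 / 125)) * b ^ 2 * m4 * b4
      + (177 / 25) * b ^ 2 * a3 ^ 2 + (25968 / 125) * b ^ 2 * a3 * b3
      + (17312 / 125) * b ^ 2 * a4 * b4 + (-(17312 / 25)) * b ^ 2 * T * a0
      + (181776 / 625) * b ^ 2 * c ^ 2 * a0 + (181776 / 625) * b ^ 2 * c ^ 2 * a2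
      + (363552 / 625) * b ^ 3 * c * a1 + (181776 / 625) * b ^ 4 * a0
      + (-(306 / 5)) * a * c * m0 * a1 + (-(306 / 5)) * a * c * m1 * a2
      + (153 / 5) * a * c * a0 * a1 + (153 / 5) * a * c * a1 * a2 + (-(306 / 5)) * a * c * m3 * a4
      + (153 / 5) * a * c * a3 * a4 + (-(177 / 5)) * a * c * T * a1 + (8656 / 25) * a * c ^ 3 * m1
      + (-(2164 / 125)) * a * c ^ 3 * a1 + (-(306 / 5)) * a * b * m0 * a0
      + (-(354 / 25)) * a * b * m0 * b0 + (-(177 / 25)) * a * b * m0 * b2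
      + (-(306 / 5)) * a * b * m1 * a1 + (-(354 / 25)) * a * b * m1 * b1
      + (-(177 / 25)) * a * b * m2 * b0 + (-(354 / 25)) * a * b * m2 * b2
      + (153 / 5) * a * b * a0 ^ 2 + (354 / 25) * a * b * a0 * b0 + (177 / 25) * a * b * a0 * b2
      + (153 / 5) * a * b * a1 ^ 2 + (354 / 25) * a * b * a1 * b1 + (177 / 25) * a * b * a2 * b0
      + (354 / 25) * a * b * a2 * b2 + (-(306 / 5)) * a * b * m3 * a3
      + (-(354 / 25)) * a * b * m3 * b3 + (-(354 / 25)) * a * b * m4 * b4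
      + (153 / 5) * a * b * a3 ^ 2 + (354 / 25) * a * b * a3 * b3 + (354 / 25) * a * b * a4 * b4
      + (-(177 / 5)) * a * b * T * a0 + (-(8656 / 25)) * a * b * c ^ 2 * m2
      + (41116 / 125) * a * b * c ^ 2 * a0 + (47174 / 125) * a * b * c ^ 2 * a2
      + (8656 / 25) * a * b ^ 2 * c * m1 + (5624 / 125) * a * b ^ 2 * c * a1
      + (-(8656 / 25)) * a * b ^ 3 * m2 + (9002 / 25) * a * b ^ 3 * a0
      + (8656 / 25) * a * b ^ 3 * a2 + (-(306 / 5)) * a ^ 2 * m0 * b0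
      + (-(153 / 5)) * a ^ 2 * m0 * b2 + (-(306 / 5)) * a ^ 2 * m1 * b1
      + (-(153 / 5)) * a ^ 2 * m2 * b0 + (-(306 / 5)) * a ^ 2 * m2 * b2
      + (306 / 5) * a ^ 2 * a0 * b0 + (153 / 5) * a ^ 2 * a0 * b2 + (306 / 5) * a ^ 2 * a1 * b1
      + (153 / 5) * a ^ 2 * a2 * b0 + (306 / 5) * a ^ 2 * a2 * b2 + (-(306 / 5)) * a ^ 2 * m3 * b3
      + (-(306 / 5)) * a ^ 2 * m4 * b4 + (306 / 5) * a ^ 2 * a3 * b3 + (306 / 5) * a ^ 2 * a4 * b4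
      + (3519 / 25) * a ^ 2 * c ^ 2 * a2 + (8656 / 125) * a ^ 2 * c ^ 2 * b0
      + (8656 / 125) * a ^ 2 * c ^ 2 * b2 + (8656 / 5) * a ^ 2 * c ^ 2 * T
      + (177 / 5) * a ^ 2 * b * c * m1 + (1119 / 4) * a ^ 2 * b * c * a1
      + (-(177 / 5)) * a ^ 2 * b ^ 2 * m2 + (17439 / 100) * a ^ 2 * b ^ 2 * a0
      + (177 / 5) * a ^ 2 * b ^ 2 * a2 + (8656 / 125) * a ^ 2 * b ^ 2 * b0
      + (8656 / 125) * a ^ 2 * b ^ 2 * b2 + (8656 / 5) * a ^ 2 * b ^ 2 * T + 153 * a ^ 3 * c * m1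
      + (-(153 / 20)) * a ^ 3 * c * a1 + (-153) * a ^ 3 * b * m2 + (2907 / 20) * a ^ 3 * b * a0
      + 153 * a ^ 3 * b * a2 + (177 / 25) * a ^ 3 * b * b0 + (177 / 25) * a ^ 3 * b * b2
      + 177 * a ^ 3 * b * T + (8656 / 25) * a ^ 3 * b * c ^ 2 + (8656 / 25) * a ^ 3 * b ^ 3
      + (153 / 5) * a ^ 4 * b0 + (153 / 5) * a ^ 4 * b2 + 765 * a ^ 4 * T
      + (177 / 5) * a ^ 4 * b ^ 2 + 153 * a ^ 5 * b

/-- expanded field group -/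
def p_bu (a b c T m0 m1 m2 a0 a1 a2 b0 b1 b2 m3 m4 a3 a4 b3 b4 : ℝ) : ℝ :=
    (4511 / 125) * c ^ 2 * m1 * b1 + (4511 / 125) * c ^ 2 * m2 * b2
      + (-(4511 / 125)) * c ^ 2 * a1 * b1 + (-(4511 / 125)) * c ^ 2 * a2 * b2
      + (57938 / 625) * c ^ 2 * b0 ^ 2 + (57938 / 625) * c ^ 2 * b0 * b2
      + (86907 / 625) * c ^ 2 * b1 ^ 2 + (86907 / 625) * c ^ 2 * b2 ^ 2
      + (4511 / 125) * c ^ 2 * m4 * b4 + (-(4511 / 125)) * c ^ 2 * a4 * b4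
      + (57938 / 625) * c ^ 2 * b3 ^ 2 + (86907 / 625) * c ^ 2 * b4 ^ 2
      + (-(57938 / 125)) * c ^ 2 * T * b2 + (28969 / 125) * c ^ 4 * m2
      + (115876 / 625) * c ^ 4 * b2 + (4511 / 125) * b * c * m0 * b1
      + (4511 / 125) * b * c * m1 * b0 + (4511 / 125) * b * c * m1 * b2
      + (4511 / 125) * b * c * m2 * b1 + (-(4511 / 125)) * b * c * a0 * b1
      + (-(4511 / 125)) * b * c * a1 * b0 + (-(4511 / 125)) * b * c * a1 * b2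
      + (-(4511 / 125)) * b * c * a2 * b1 + (57938 / 625) * b * c * b0 * b1
      + (57938 / 625) * b * c * b1 * b2 + (4511 / 125) * b * c * m3 * b4
      + (4511 / 125) * b * c * m4 * b3 + (-(4511 / 125)) * b * c * a3 * b4
      + (-(4511 / 125)) * b * c * a4 * b3 + (57938 / 625) * b * c * b3 * b4
      + (-(115876 / 125)) * b * c * T * b1 + (57938 / 125) * b * c ^ 3 * m1
      + (231752 / 625) * b * c ^ 3 * b1 + (4511 / 125) * b ^ 2 * m0 * b0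
      + (4511 / 125) * b ^ 2 * m1 * b1 + (-(4511 / 125)) * b ^ 2 * a0 * b0
      + (-(4511 / 125)) * b ^ 2 * a1 * b1 + (86907 / 625) * b ^ 2 * b0 ^ 2
      + (57938 / 625) * b ^ 2 * b0 * b2 + (86907 / 625) * b ^ 2 * b1 ^ 2
      + (57938 / 625) * b ^ 2 * b2 ^ 2 + (4511 / 125) * b ^ 2 * m3 * b3
      + (-(4511 / 125)) * b ^ 2 * a3 * b3 + (86907 / 625) * b ^ 2 * b3 ^ 2
      + (57938 / 625) * b ^ 2 * b4 ^ 2 + (-(57938 / 125)) * b ^ 2 * T * b0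
      + (28969 / 125) * b ^ 2 * c ^ 2 * m0 + (28969 / 125) * b ^ 2 * c ^ 2 * m2
      + (115876 / 625) * b ^ 2 * c ^ 2 * b0 + (115876 / 625) * b ^ 2 * c ^ 2 * b2
      + (57938 / 125) * b ^ 3 * c * m1 + (231752 / 625) * b ^ 3 * c * b1
      + (28969 / 125) * b ^ 4 * m0 + (115876 / 625) * b ^ 4 * b0
      + (-(2276 / 25)) * a * c * m0 * b1 + (-(2276 / 25)) * a * c * m1 * b2
      + (1138 / 25) * a * c * a0 * b1 + (1138 / 25) * a * c * a1 * b2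
      + (-(2276 / 25)) * a * c * m3 * b4 + (1138 / 25) * a * c * a3 * b4
      + (4511 / 25) * a * c * T * b1 + (-(28969 / 2500)) * a * c ^ 3 * b1
      + (-(2276 / 25)) * a * b * m0 * b0 + (-(2276 / 25)) * a * b * m1 * b1
      + (1138 / 25) * a * b * a0 * b0 + (1138 / 25) * a * b * a1 * b1
      + (-(9022 / 125)) * a * b * b0 ^ 2 + (-(9022 / 125)) * a * b * b0 * b2
      + (-(9022 / 125)) * a * b * b1 ^ 2 + (-(9022 / 125)) * a * b * b2 ^ 2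
      + (-(2276 / 25)) * a * b * m3 * b3 + (1138 / 25) * a * b * a3 * b3
      + (-(9022 / 125)) * a * b * b3 ^ 2 + (-(9022 / 125)) * a * b * b4 ^ 2
      + (4511 / 25) * a * b * T * b0 + (-(4511 / 25)) * a * b * c ^ 2 * m2
      + (1129791 / 2500) * a * b * c ^ 2 * b0 + (194959 / 625) * a * b * c ^ 2 * b2
      + (57938 / 25) * a * b * c ^ 2 * T + (-(9022 / 25)) * a * b ^ 2 * c * m1
      + (-(786817 / 2500)) * a * b ^ 2 * c * b1 + (-(4511 / 25)) * a * b ^ 3 * m0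
      + (750867 / 2500) * a * b ^ 3 * b0 + (57938 / 125) * a * b ^ 3 * b2
      + (57938 / 25) * a * b ^ 3 * T + (2276 / 25) * a ^ 2 * b0 ^ 2
      + (2276 / 25) * a ^ 2 * b0 * b2 + (2276 / 25) * a ^ 2 * b1 ^ 2
      + (2276 / 25) * a ^ 2 * b2 ^ 2 + (2276 / 25) * a ^ 2 * b3 ^ 2 + (2276 / 25) * a ^ 2 * b4 ^ 2
      + (1138 / 5) * a ^ 2 * c ^ 2 * m2 + (25036 / 125) * a ^ 2 * c ^ 2 * b2
      + (2276 / 5) * a ^ 2 * b * c * m1 + (204799 / 500) * a ^ 2 * b * c * b1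
      + (1138 / 5) * a ^ 2 * b ^ 2 * m0 + (-(15157 / 100)) * a ^ 2 * b ^ 2 * b0
      + (-(9022 / 25)) * a ^ 2 * b ^ 2 * b2 + (-(9022 / 5)) * a ^ 2 * b ^ 2 * T
      + (28969 / 25) * a ^ 2 * b ^ 2 * c ^ 2 + (28969 / 25) * a ^ 2 * b ^ 4
      + (-(569 / 50)) * a ^ 3 * c * b1 + (22191 / 50) * a ^ 3 * b * b0
      + (2276 / 5) * a ^ 3 * b * b2 + 2276 * a ^ 3 * b * T + (-(4511 / 5)) * a ^ 3 * b ^ 3
      + 1138 * a ^ 4 * b ^ 2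

/-- multiplier -/
def lam0 (a b c T m0 m1 m2 a0 a1 a2 b0 b1 b2 m3 m4 a3 a4 b3 b4 : ℝ) : ℝ :=
    (211 / 2) * c * m1 + (6245 / 4) * c * a1 + (-49) * c * b1 + (229 / 2) * b * m0
      + (131 / 4) * b * m2 + (6201 / 4) * b * a0 + (-26) * b * a2 + (-(363 / 4)) * b * b0
      + (-(139 / 4)) * b * b2 + (-(1285 / 4)) * b * c ^ 2 + (-379) * b ^ 3 + (-(147 / 4)) * a * m0
      + (-(21 / 2)) * a * m2 + (85 / 2) * a * a0 + (13 / 2) * a * a2 + (-1566) * a * b0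
      + 21 * a * b2 + (-(613 / 2)) * a * c ^ 2 + (77 / 4) * a * b ^ 2 + (-129) * a ^ 2 * b
      + (65 / 4) * a ^ 3

/-- multiplier -/
def lam1 (a b c T m0 m1 m2 a0 a1 a2 b0 b1 b2 m3 m4 a3 a4 b3 b4 : ℝ) : ℝ :=
    42 * c * m0 + (221 / 2) * c * m2 + (-(97 / 4)) * c * a0 + (7683 / 4) * c * a2
      + (-(93 / 4)) * c * b0 + (-(215 / 4)) * c * b2 + (-(657 / 2)) * c ^ 3 + (245 / 2) * b * m1
      + (7617 / 4) * b * a1 + (-(303 / 4)) * b * b1 + (-437) * b ^ 2 * c + (-(223 / 4)) * a * m1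
      + (195 / 4) * a * a1 + (-1937) * a * b1 + (1241 / 4) * a * b * c + (-(393 / 4)) * a ^ 2 * c

/-- multiplier -/
def lam2 (a b c T m0 m1 m2 a0 a1 a2 b0 b1 b2 m3 m4 a3 a4 b3 b4 : ℝ) : ℝ :=
    (173 / 2) * c * m4 + (7725 / 4) * c * a4 + (-56) * c * b4 + (345 / 4) * b * m3
      + (7701 / 4) * b * a3 + (-(181 / 2)) * b * b3 + (-(81 / 4)) * a * m3 + (61 / 2) * a * a3
      + (-1927) * a * b3

end Vale.Agent.P252F
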