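import Vale.Agent.P252E.Jet
import Vale.Agent.P252F.Poly

/-!
The pointwise certificate in the frame `L = (a, 0, 0)`, `U = (b / 5, c / 5, 0)` (generated).
-/

set_option linter.style.longLine false

open Finset

noncomputable section

namespace Vale.Agent.P252F

open Vale.Agent.P252E

/-- the jet in the frame -/
def frameJet (a b c T m0 m1 m2 a0 a1 a2 b0 b1 b2 m3 m4 a3 a4 b3 b4 : ℝ) : Jet where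
  L := ![a, 0, 0]
  U := ![b / 5, c / 5, 0]
  T := T
  M := ![![m0, m1, m3], ![m1, m2, m4], ![m3, m4, -4 * a ^ 2 - m0 - m2]]
  A := ![![a0, a1, a3], ![a1, a2, a4], ![a3, a4, -5 * a ^ 2 - a0 - a2]]
  B := ![![b0 / 5, b1 / 5, b3 / 5], ![b1 / 5, b2 / 5, b4 / 5],
      ![b3 / 5, b4 / 5, -(a * b) - b0 / 5 - b2 / 5]]

/-- field of each term -/
def fidx : Fin 27 → Fld :=
  ![.l, .l, .l, .l, .l, .l, .u, .u, .u, .u, .u, .u, .ml, .ml, .ml, .mu, .mu, .mu, .al, .al, .al, .au, .au, .au, .bu, .bu, .bu]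

/-- monomial of each term -/
def eidx : Fin 27 → ℕ × ℕ × ℕ :=
  ![(2, 0, 0), (1, 1, 0), (1, 0, 1), (0, 2, 0), (0, 1, 1), (0, 0, 2), (2, 0, 0), (1, 1, 0), (1, 0, 1), (0, 2, 0), (0, 1, 1), (0, 0, 2), (1, 0, 0), (0, 1, 0),
    (0, 0, 1), (1, 0, 0), (0, 1, 0), (0, 0, 1), (1, 0, 0), (0, 1, 0), (0, 0, 1), (1, 0, 0), (0, 1, 0), (0, 0, 1), (1, 0, 0), (0, 1, 0), (0, 0, 1)]

/-- coefficient of each term -/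
def cidx : Fin 27 → ℝ :=
  ![-36, -235, -3891, -526, -48136, -106699, -145, 38, -17027, 29430, -85220, -229907, 34, -180, 1492, 39, 2272, 2678, -25, 103, -1244, -153, -177, -8656, -1138, 4511, -28969]

/-- group of one field -/
def grp (J : Jet) (F : Fld) {n : ℕ} (e : Fin n → ℕ × ℕ × ℕ) (c : Fin n → ℝ) : ℝ :=
  ∑ i, c i * J.Phi (19 / 20) 24 F (e i)

theorem group_l (a b c T m0 m1 m2 a0 a1 a2 b0 b1 b2 m3 m4 a3 a4 b3 b4 : ℝ) :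
    grp (frameJet a b c T m0 m1 m2 a0 a1 a2 b0 b1 b2 m3 m4 a3 a4 b3 b4) .l ![(2, 0, 0), (1, 1, 0), (1, 0, 1), (0, 2, 0), (0, 1, 1), (0, 0, 2)] ![(-36 : ℝ), (-235 : ℝ), (-3891 : ℝ), (-526 : ℝ), (-48136 : ℝ), (-106699 : ℝ)]
      = p_l a b c T m0 m1 m2 a0 a1 a2 b0 b1 b2 m3 m4 a3 a4 b3 b4 := by
  simp [grp, Jet.Phi, Jet.mono, Jet.dmono, Jet.trDw, Jet.w, Jet.X, Jet.P, Jet.Y, Jet.dX, Jet.dP,
    Jet.dY, Jet.dU, dot, app, dot₂, frameJet, p_l, Fin.sum_univ_succ]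
  ring

theorem group_u (a b c T m0 m1 m2 a0 a1 a2 b0 b1 b2 m3 m4 a3 a4 b3 b4 : ℝ) :
    grp (frameJet a b c T m0 m1 m2 a0 a1 a2 b0 b1 b2 m3 m4 a3 a4 b3 b4) .u ![(2, 0, 0), (1, 1, 0), (1, 0, 1), (0, 2, 0), (0, 1, 1), (0, 0, 2)] ![(-145 : ℝ), (38 : ℝ), (-17027 : ℝ), (29430 : ℝ), (-85220 : ℝ), (-229907 : ℝ)]
      = p_u a b c T m0 m1 m2 a0 a1 a2 b0 b1 b2 m3 m4 a3 a4 b3 b4 := by
  simp [grp, Jet.Phi, Jet.mono, Jet.dmono, Jet.trDw, Jet.w, Jet.X, Jet.P, Jet.Y, Jet.dX, Jet.dP,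
    Jet.dY, Jet.dU, dot, app, dot₂, frameJet, p_u, Fin.sum_univ_succ]
  ring

theorem group_ml (a b c T m0 m1 m2 a0 a1 a2 b0 b1 b2 m3 m4 a3 a4 b3 b4 : ℝ) :
    grp (frameJet a b c T m0 m1 m2 a0 a1 a2 b0 b1 b2 m3 m4 a3 a4 b3 b4) .ml ![(1, 0, 0), (0, 1, 0), (0, 0, 1)] ![(34 : ℝ), (-180 : ℝ), (1492 : ℝ)]
      = p_ml a b c T m0 m1 m2 a0 a1 a2 b0 b1 b2 m3 m4 a3 a4 b3 b4 := by
  simp [grp, Jet.Phi, Jet.mono, Jet.dmono, Jet.trDw, Jet.w, Jet.X, Jet.P, Jet.Y, Jet.dX, Jet.dP,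
    Jet.dY, Jet.dU, dot, app, dot₂, frameJet, p_ml, Fin.sum_univ_succ]
  ring

theorem group_mu (a b c T m0 m1 m2 a0 a1 a2 b0 b1 b2 m3 m4 a3 a4 b3 b4 : ℝ) :
    grp (frameJet a b c T m0 m1 m2 a0 a1 a2 b0 b1 b2 m3 m4 a3 a4 b3 b4) .mu ![(1, 0, 0), (0, 1, 0), (0, 0, 1)] ![(39 : ℝ), (2272 : ℝ), (2678 : ℝ)]
      = p_mu a b c T m0 m1 m2 a0 a1 a2 b0 b1 b2 m3 m4 a3 a4 b3 b4 := by
  simp [grp, Jet.Phi, Jet.mono, Jet.dmono, Jet.trDw, Jet.w, Jet.X, Jet.P, Jet.Y, Jet.dX, Jet.dP,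
    Jet.dY, Jet.dU, dot, app, dot₂, frameJet, p_mu, Fin.sum_univ_succ]
  ring

theorem group_al (a b c T m0 m1 m2 a0 a1 a2 b0 b1 b2 m3 m4 a3 a4 b3 b4 : ℝ) :
    grp (frameJet a b c T m0 m1 m2 a0 a1 a2 b0 b1 b2 m3 m4 a3 a4 b3 b4) .al ![(1, 0, 0), (0, 1, 0), (0, 0, 1)] ![(-25 : ℝ), (103 : ℝ), (-1244 : ℝ)]
      = p_al a b c T m0 m1 m2 a0 a1 a2 b0 b1 b2 m3 m4 a3 a4 b3 b4 := by
  simp [grp, Jet.Phi, Jet.mono, Jet.dmono, Jet.trDw, Jet.w, Jet.X, Jet.P, Jet.Y, Jet.dX, Jet.dP,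
    Jet.dY, Jet.dU, dot, app, dot₂, frameJet, p_al, Fin.sum_univ_succ]
  ring

theorem group_au (a b c T m0 m1 m2 a0 a1 a2 b0 b1 b2 m3 m4 a3 a4 b3 b4 : ℝ) :
    grp (frameJet a b c T m0 m1 m2 a0 a1 a2 b0 b1 b2 m3 m4 a3 a4 b3 b4) .au ![(1, 0, 0), (0, 1, 0), (0, 0, 1)] ![(-153 : ℝ), (-177 : ℝ), (-8656 : ℝ)]
      = p_au a b c T m0 m1 m2 a0 a1 a2 b0 b1 b2 m3 m4 a3 a4 b3 b4 := by
  simp [grp, Jet.Phi, Jet.mono, Jet.dmono, Jet.trDw, Jet.w, Jet.X, Jet.P, Jet.Y, Jet.dX, Jet.dP,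
    Jet.dY, Jet.dU, dot, app, dot₂, frameJet, p_au, Fin.sum_univ_succ]
  ring

theorem group_bu (a b c T m0 m1 m2 a0 a1 a2 b0 b1 b2 m3 m4 a3 a4 b3 b4 : ℝ) :
    grp (frameJet a b c T m0 m1 m2 a0 a1 a2 b0 b1 b2 m3 m4 a3 a4 b3 b4) .bu ![(1, 0, 0), (0, 1, 0), (0, 0, 1)] ![(-1138 : ℝ), (4511 : ℝ), (-28969 : ℝ)]
      = p_bu a b c T m0 m1 m2 a0 a1 a2 b0 b1 b2 m3 m4 a3 a4 b3 b4 := by
  simp [grp, Jet.Phi, Jet.mono, Jet.dmono, Jet.trDw, Jet.w, Jet.X, Jet.P, Jet.Y, Jet.dX, Jet.dP,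
    Jet.dY, Jet.dU, dot, app, dot₂, frameJet, p_bu, Fin.sum_univ_succ]
  ring

theorem sum_groups (J : Jet) : (∑ i, cidx i * J.Phi (19 / 20) 24 (fidx i) (eidx i))
    = grp J .l ![(2, 0, 0), (1, 1, 0), (1, 0, 1), (0, 2, 0), (0, 1, 1), (0, 0, 2)] ![(-36 : ℝ), (-235 : ℝ), (-3891 : ℝ), (-526 : ℝ), (-48136 : ℝ), (-106699 : ℝ)]
    + grp J .u ![(2, 0, 0), (1, 1, 0), (1, 0, 1), (0, 2, 0), (0, 1, 1), (0, 0, 2)] ![(-145 : ℝ), (38 : ℝ), (-17027 : ℝ), (29430 : ℝ), (-85220 : ℝ), (-229907 : ℝ)]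
    + grp J .ml ![(1, 0, 0), (0, 1, 0), (0, 0, 1)] ![(34 : ℝ), (-180 : ℝ), (1492 : ℝ)]
    + grp J .mu ![(1, 0, 0), (0, 1, 0), (0, 0, 1)] ![(39 : ℝ), (2272 : ℝ), (2678 : ℝ)]
    + grp J .al ![(1, 0, 0), (0, 1, 0), (0, 0, 1)] ![(-25 : ℝ), (103 : ℝ), (-1244 : ℝ)]
    + grp J .au ![(1, 0, 0), (0, 1, 0), (0, 0, 1)] ![(-153 : ℝ), (-177 : ℝ), (-8656 : ℝ)]
    + grp J .bu ![(1, 0, 0), (0, 1, 0), (0, 0, 1)] ![(-1138 : ℝ), (4511 : ℝ), (-28969 : ℝ)] := by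
  simp [grp, cidx, fidx, eidx, Fin.sum_univ_succ]
  ring

end Vale.Agent.P252F
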