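import Vale.Agent.P252D.CertGlue
import Vale.Agent.P252F.Cert
import Vale.Agent.P252F.Frame

/-! The pointwise certificate for every valid jet. -/

noncomputable section

namespace Vale.Agent.P252F

open Vale.Agent.P252E Vale.Agent.P252D

theorem eq_frameJet (J : Jet) (h : J.Valid) (h1 : J.L 1 = 0) (h2 : J.L 2 = 0) (h3 : J.U 2 = 0) :
    J = frameJet (J.L 0) (5 * J.U 0) (5 * J.U 1) J.T (J.M 0 0) (J.M 0 1) (J.M 1 1) (J.A 0 0)
      (J.A 0 1) (J.A 1 1) (5 * J.B 0 0) (5 * J.B 0 1) (5 * J.B 1 1) (J.M 0 2) (J.M 1 2) (J.A 0 2)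
      (J.A 1 2) (5 * J.B 0 2) (5 * J.B 1 2) := by
  have hM := h.M_trace
  have hA := h.A_trace
  have hB := h.B_trace
  have sM := h.M_symm
  have sA := h.A_symm
  have sB := h.B_symm
  simp [Fin.sum_univ_three, Jet.X, Jet.P, dot, h1, h2, h3] at hM hA hB
  obtain ⟨L, U, T, M, A, B⟩ := J
  simp only [frameJet, Jet.mk.injEq] at h1 h2 h3 hM hA hB sM sA sB ⊢
  refine ⟨?_, ?_, trivial, ?_, ?_, ?_⟩
  · funext i; fin_cases i <;> simp [h1, h2]
  · funext i; fin_cases i <;> simp [h3]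
  · funext i j
    fin_cases i <;> fin_cases j <;>
      simp [sM 1 0, sM 2 0, sM 2 1] <;> linarith
  · funext i j
    fin_cases i <;> fin_cases j <;>
      simp [sA 1 0, sA 2 0, sA 2 1] <;> linarith
  · funext i j
    fin_cases i <;> fin_cases j <;>
      simp [sB 1 0, sB 2 0, sB 2 1] <;> linarith

theorem hdeg : ∀ i, udeg (fidx i) (eidx i) + 2 ≤ 24 := by
  intro i
  fin_cases i <;> simp [fidx, eidx, udeg, Fld.degU]

theorem exists_pointCert :
    ∃ ε N : ℝ, 0 < ε ∧ PointCert (19 / 20) 24 fidx eidx cidx ε N := by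
  refine ⟨1 / 192, 108782153207814029312 / 390625, by norm_num, fun J hJ => ?_⟩
  obtain ⟨K, hK, hT, hX, hPhi, h1, h2, h3⟩ := exists_frame J hJ
  have hsum : (∑ i, cidx i * J.Phi (19 / 20) 24 (fidx i) (eidx i))
      = ∑ i, cidx i * K.Phi (19 / 20) 24 (fidx i) (eidx i) :=
    Finset.sum_congr rfl fun i _ => by rw [hPhi]
  rw [hsum, ← hT, ← hX, sum_groups]
  have hXK : K.X = K.L 0 ^ 2 := by
    simp [Jet.X, dot, Fin.sum_univ_three, h1, h2, sq]
  have hAB := hK.AB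
  simp only [app, Fin.sum_univ_three, h1, h2, h3] at hAB
  rw [hXK]
  have e0 := hAB 0
  have e1 := hAB 1
  have e2 := hAB 2
  rw [hK.A_symm 1 0, hK.B_symm 1 0] at e1
  rw [hK.A_symm 2 0, hK.A_symm 2 1, hK.B_symm 2 0] at e2
  refine le_of_le_of_eq (frame_cert (K.L 0) (5 * K.U 0) (5 * K.U 1) K.T (K.M 0 0) (K.M 0 1)
    (K.M 1 1) (K.A 0 0) (K.A 0 1) (K.A 1 1) (5 * K.B 0 0) (5 * K.B 0 1) (5 * K.B 1 1) (K.M 0 2)
    (K.M 1 2) (K.A 0 2) (K.A 1 2) (5 * K.B 0 2) (5 * K.B 1 2) hK.T_pos.le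
    (by linear_combination 5 * e0) (by linear_combination 5 * e1)
    (by linear_combination 5 * e2)) ?_
  rw [← group_l, ← group_u, ← group_ml, ← group_mu, ← group_al, ← group_au, ← group_bu,
    ← eq_frameJet K hK h1 h2 h3]

end Vale.Agent.P252F
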